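import Vale.Agent.P062.Core

/-!
A checker for certificates of wins. Cells of the square `[-8, 8) ^ 2` are numbered below `256`, and
sets of them are bit vectors. An entry `(p, z)` says: if Maker, to move, owns all cells of `p` and
Breaker none of `z`, then Maker wins.
-/

namespace Vale.Agent.P062

open Finset

/-- The cell with number `c`. -/
def cellOf (c : ℕ) : Cell := (((c % 16 : ℕ) : ℤ) - 8, ((c / 16 : ℕ) : ℤ) - 8)

/-- Whether a cell lies in the square. -/
def inBox (q : Cell) : Bool :=
  decide (-8 ≤ q.1) && decide (q.1 < 8) && decide (-8 ≤ q.2) && decide (q.2 < 8)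

/-- The number of a cell of the square. -/
def numOf (q : Cell) : ℕ := (q.1 + 8).toNat + 16 * (q.2 + 8).toNat

theorem cellOf_numOf {q : Cell} (h : inBox q = true) : cellOf (numOf q) = q ∧ numOf q < 256 := by
  obtain ⟨a, b⟩ := q
  simp only [inBox, Bool.and_eq_true, decide_eq_true_eq] at h
  refine ⟨?_, by simp only [numOf]; omega⟩
  simp only [cellOf, numOf, Prod.mk.injEq]
  constructor <;> omega

theorem cellOf_injective {a b : ℕ} (_ha : a < 256) (_hb : b < 256) (h : cellOf a = cellOf b) :
    a = b := by
  simp only [cellOf, Prod.mk.injEq] at h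
  omega

/-- The justification of an entry. -/
inductive Step : Type
  | finish (swap fx fy : Bool) (x y last : ℕ)
  | move (m : ℕ) (next : List ℕ)

/-- An entry of a certificate. -/
inductive Entry : Type
  | mk (p z : ℕ) (step : Step)

def Entry.p : Entry → ℕ
  | .mk p _ _ => p

def Entry.z : Entry → ℕ
  | .mk _ z _ => z

def Entry.step : Entry → Step
  | .mk _ _ s => s

/-- A binary tree of entries, indexed from the low bit. -/
inductive Table : Type
  | leaf (e : Entry)
  | node (l r : Table)

def Table.get : Table → ℕ → Entry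
  | .leaf e, _ => e
  | .node l r, i => bif i % 2 == 0 then l.get (i / 2) else r.get (i / 2)

/-- The six cells of Snaky, as a list. -/
def snakyList : List Cell := [(0, 0), (1, 0), (2, 0), (3, 0), (3, 1), (4, 1)]

def finishOk (p z : ℕ) (swap fx fy : Bool) (x y last : ℕ) : Bool :=
  decide (last < 256) && z.testBit last && snakyList.all fun s =>
    let q := ((x : ℤ) - 8, (y : ℤ) - 8) + sym swap fx fy s
    inBox q && (p.testBit (numOf q) || numOf q == last)

def moveOk (T : Table) (i p z m : ℕ) (next : List ℕ) : Bool :=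
  decide (m < 256) && z.testBit m && !next.isEmpty &&
    (next.all fun c => decide (c < i) &&
      ((T.get c).p ||| (p ||| 2 ^ m) == (p ||| 2 ^ m)) && ((T.get c).z ||| z == z)) &&
    ((next.foldr (fun c a => (T.get c).z &&& a) z) ||| (p ||| 2 ^ m) == (p ||| 2 ^ m))

def entryOk (T : Table) (i : ℕ) : Bool :=
  match (T.get i).step with
  | .finish s fx fy x y l => finishOk (T.get i).p (T.get i).z s fx fy x y l
  | .move m next => moveOk T i (T.get i).p (T.get i).z m next

/-- Checks the entries `start, start + 1, …, start + len - 1`. -/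
def rangeOk (T : Table) (start : ℕ) : ℕ → Bool
  | 0 => true
  | n + 1 => entryOk T (start + n) && rangeOk T start n

theorem entryOk_of_rangeOk {T : Table} {start len i : ℕ} (h : rangeOk T start len = true)
    (h1 : start ≤ i) (h2 : i < start + len) : entryOk T i = true := by
  induction len with
  | zero => omega
  | succ n ih =>
    simp only [rangeOk, Bool.and_eq_true] at h
    rcases Nat.lt_or_ge i (start + n) with h3 | h3
    · exact ih h.2 h3
    · obtain rfl : i = start + n := by omega
      exact h.1

/-- The meaning of an entry. -/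
def Good (k p z : ℕ) : Prop :=
  ∀ M B : Finset Cell, (∀ c < 256, p.testBit c = true → cellOf c ∈ M) →
    (∀ c < 256, z.testBit c = true → cellOf c ∉ B) → Disjoint M B → WinsIn k M B

theorem testBit_of_or_eq {a b c : ℕ} (h : (a ||| b == b) = true) (ha : a.testBit c = true) :
    b.testBit c = true := by
  rw [← eq_of_beq h, Nat.testBit_or, ha, Bool.true_or]

theorem exists_testBit_false {T : Table} {z c : ℕ} : ∀ {next : List ℕ},
    (next.foldr (fun d a => (T.get d).z &&& a) z).testBit c = false →
      z.testBit c = false ∨ ∃ d ∈ next, (T.get d).z.testBit c = false := by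
  intro next
  induction next with
  | nil => exact Or.inl
  | cons d next ih =>
    simp only [List.foldr_cons, Nat.testBit_and, Bool.and_eq_false_iff]
    rintro (h | h)
    · exact Or.inr ⟨d, List.mem_cons_self, h⟩
    · exact (ih h).imp id fun ⟨e, he, he'⟩ => ⟨e, List.mem_cons_of_mem _ he, he'⟩

theorem good_finish {k p z : ℕ} {s fx fy : Bool} {x y last : ℕ}
    (h : finishOk p z s fx fy x y last = true) : Good (k + 1) p z := by
  intro M B hp hz hd
  simp only [finishOk, Bool.and_eq_true, decide_eq_true_eq, List.all_eq_true, Bool.or_eq_true,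
    beq_iff_eq] at h
  obtain ⟨⟨hl, hzl⟩, hall⟩ := h
  obtain ⟨w, hwM, hwB, hlw⟩ : ∃ w, w ∉ M ∧ w ∉ B ∧ (cellOf last ∈ M ∨ w = cellOf last) := by
    by_cases hm : cellOf last ∈ M
    · obtain ⟨w, h1, h2⟩ := exists_free M B
      exact ⟨w, h1, h2, Or.inl hm⟩
    · exact ⟨cellOf last, hm, hz _ hl hzl, Or.inr rfl⟩
  refine ⟨w, hwM, hwB, Or.inl ⟨snaky.image fun q => ((x : ℤ) - 8, (y : ℤ) - 8) + sym s fx fy q,
    ⟨s, _, _, _, by cases fx <;> simp, by cases fy <;> simp, rfl⟩, ?_⟩⟩
  intro q hq
  obtain ⟨r, hr, rfl⟩ := mem_image.1 hq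
  have hr' : r ∈ snakyList := by
    simpa [snaky, snakyList] using hr
  obtain ⟨hin, hor⟩ := hall r hr'
  obtain ⟨hc, hlt⟩ := cellOf_numOf hin
  rw [← hc]
  rcases hor with hp' | he
  · exact mem_insert_of_mem (hp _ hlt hp')
  · rw [he]
    rcases hlw with h' | rfl
    · exact mem_insert_of_mem h'
    · exact mem_insert_self _ _

theorem good_move {T : Table} {i p z m : ℕ} {next : List ℕ} (h : moveOk T i p z m next = true)
    (ih : ∀ c < i, Good (c + 1) (T.get c).p (T.get c).z) : Good (i + 1) p z := by
  intro M B hp hz hd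
  simp only [moveOk, Bool.and_eq_true, decide_eq_true_eq, List.all_eq_true] at h
  obtain ⟨⟨⟨⟨hm, hzm⟩, hne⟩, hnext⟩, hI⟩ := h
  obtain ⟨w, hwM, hwB, hmw⟩ : ∃ w, w ∉ M ∧ w ∉ B ∧ (cellOf m ∈ M ∨ w = cellOf m) := by
    by_cases hm' : cellOf m ∈ M
    · obtain ⟨w, h1, h2⟩ := exists_free M B
      exact ⟨w, h1, h2, Or.inl hm'⟩
    · exact ⟨cellOf m, hm', hz _ hm hzm, Or.inr rfl⟩
  refine ⟨w, hwM, hwB, Or.inr fun b hb hb' => ?_⟩
  have hpm : ∀ c < 256, (p ||| 2 ^ m).testBit c = true → cellOf c ∈ insert w M := by
    intro c hc hbit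
    rw [Nat.testBit_or, Bool.or_eq_true, Nat.testBit_two_pow, decide_eq_true_eq] at hbit
    rcases hbit with hbit | rfl
    · exact mem_insert_of_mem (hp c hc hbit)
    · rcases hmw with h' | rfl
      · exact mem_insert_of_mem h'
      · exact mem_insert_self _ _
  obtain ⟨d, hd', hfree⟩ : ∃ d ∈ next, ∀ c < 256, (T.get d).z.testBit c = true → cellOf c ≠ b := by
    by_cases hbox : ∃ c < 256, cellOf c = b
    · obtain ⟨c0, hc0, rfl⟩ := hbox
      have hI0 : (next.foldr (fun c a => (T.get c).z &&& a) z).testBit c0 = false := by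
        by_contra hcon
        exact hb (hpm c0 hc0 (testBit_of_or_eq hI (by simpa using hcon)))
      have key : ∀ d, (T.get d).z.testBit c0 = false →
          ∀ c < 256, (T.get d).z.testBit c = true → cellOf c ≠ cellOf c0 := by
        intro d hdz c hc hbit he
        rw [cellOf_injective hc hc0 he, hdz] at hbit
        cases hbit
      rcases exists_testBit_false hI0 with hzf | ⟨d, hd', hdz⟩
      · obtain ⟨d, hd'⟩ := List.exists_mem_of_ne_nil next (by simpa using hne)
        refine ⟨d, hd', key d ?_⟩
        by_contra hcon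
        have := testBit_of_or_eq (hnext d hd').2 (by simpa using hcon)
        rw [hzf] at this
        cases this
      · exact ⟨d, hd', key d hdz⟩
    · obtain ⟨d, hd'⟩ := List.exists_mem_of_ne_nil next (by simpa using hne)
      exact ⟨d, hd', fun c hc _ he => hbox ⟨c, hc, he⟩⟩
  obtain ⟨⟨hdi, hdp⟩, hdz⟩ := hnext d hd'
  refine (ih d hdi (insert w M) (insert b B) (fun c hc hbit => hpm c hc (testBit_of_or_eq hdp hbit))
    (fun c hc hbit => ?_) ?_).mono hdi
  · rw [mem_insert, not_or]
    exact ⟨hfree c hc hbit, hz c hc (testBit_of_or_eq hdz hbit)⟩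
  · rw [disjoint_insert_left, disjoint_insert_right, mem_insert, not_or]
    exact ⟨⟨fun e => hb (e ▸ mem_insert_self _ _), hwB⟩, fun e => hb (mem_insert_of_mem e), hd⟩

theorem good_of_entryOk {T : Table} {n : ℕ} (h : ∀ i < n, entryOk T i = true) :
    ∀ i < n, Good (i + 1) (T.get i).p (T.get i).z := by
  intro i
  induction i using Nat.strong_induction_on with
  | _ i ih =>
    intro hi
    have hok := h i hi
    unfold entryOk at hok
    split at hok
    · exact good_finish hok
    · exact good_move hok fun c hc => ih c hc (hc.trans hi)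

/-- The inverse of a symmetry. -/
def symInv (s fx fy : Bool) : Cell → Cell := bif s then sym s fy fx else sym s fx fy

theorem symInv_sym (s fx fy : Bool) (p : Cell) : symInv s fx fy (sym s fx fy p) = p := by
  cases s <;> cases fx <;> cases fy <;> simp [symInv, sym, turn]

theorem sym_symInv (s fx fy : Bool) (p : Cell) : sym s fx fy (symInv s fx fy p) = p := by
  cases s <;> cases fx <;> cases fy <;> simp [symInv, sym, turn]

theorem symInv_isCopy (s fx fy : Bool) {C : Finset Cell} (hC : IsCopy C) :
    IsCopy (C.image (symInv s fx fy)) := by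
  cases s <;> simp only [symInv, cond_true, cond_false] <;>
    exact turn_isCopy (by cases fx <;> cases fy <;> simp) (by cases fx <;> cases fy <;> simp) rfl hC

/-- The number of the origin. -/
def origin : ℕ := 136

def rootFits (T : Table) (c r : ℕ) (s fx fy : Bool) : Bool :=
  let q := sym s fx fy (cellOf c)
  !inBox q || !(T.get r).z.testBit (numOf q)

def syms : List (Bool × Bool × Bool) :=
  [(false, false, false), (false, false, true), (false, true, false), (false, true, true),
    (true, false, false), (true, false, true), (true, true, false), (true, true, true)]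

/-- Every first reply of Breaker is answered by some root entry, up to symmetry. -/
def rootsOk (T : Table) (n : ℕ) (roots : List ℕ) : Bool :=
  !roots.isEmpty && (roots.all fun r => decide (r < n) && ((T.get r).p ||| 2 ^ origin == 2 ^ origin)) &&
    (List.range 256).all fun c => c == origin || roots.any fun r => syms.any fun s =>
      rootFits T c r s.1 s.2.1 s.2.2

theorem makerHasWinningStrategy_of_cert (T : Table) (n : ℕ) (roots : List ℕ)
    (hT : ∀ i < n, entryOk T i = true) (hR : rootsOk T n roots = true) :
    MakerHasWinningStrategy := by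
  simp only [rootsOk, Bool.and_eq_true, List.all_eq_true, decide_eq_true_eq, Bool.or_eq_true,
    beq_iff_eq, List.any_eq_true, List.mem_range] at hR
  obtain ⟨⟨hne, hroots⟩, hcov⟩ := hR
  refine hasWinningStrategy_of_winsIn (k := n + 1 + 1) ⟨(0, 0), by simp, by simp, Or.inr ?_⟩
  intro b hb _
  simp only [insert_empty_eq, mem_singleton] at hb
  obtain ⟨r, hr, s, fx, fy, hfit⟩ : ∃ r ∈ roots, ∃ s fx fy : Bool,
      ∀ c < 256, (T.get r).z.testBit c = true → cellOf c ≠ sym s fx fy b := by
    by_cases hbox : inBox b = true
    · obtain ⟨hc, hlt⟩ := cellOf_numOf hbox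
      rcases hcov (numOf b) hlt with h0 | ⟨r, hr, ⟨s, fx, fy⟩, -, hfit⟩
      · exact absurd (by rw [← hc, h0]; rfl) hb
      · refine ⟨r, hr, s, fx, fy, fun c hc' hbit he => ?_⟩
        simp only [rootFits, hc, Bool.or_eq_true, Bool.not_eq_true'] at hfit
        have hin : inBox (cellOf c) = true := by
          simp [inBox, cellOf]
          refine ⟨⟨⟨?_, decide_eq_true ?_⟩, ?_⟩, decide_eq_true ?_⟩ <;> omega
        rw [← he] at hfit
        rcases hfit with hf | hf
        · rw [hin] at hf
          cases hf
        · obtain ⟨he1, he2⟩ := cellOf_numOf hin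
          rw [cellOf_injective he2 hc' he1, hbit] at hf
          cases hf
    · obtain ⟨r, hr⟩ := List.exists_mem_of_ne_nil roots (by simpa using hne)
      refine ⟨r, hr, false, false, false, fun c hc' _ he => hbox ?_⟩
      have : b = cellOf c := by rw [he]; simp [sym, turn]
      rw [this]
      simp [inBox, cellOf]
      refine ⟨⟨⟨?_, decide_eq_true ?_⟩, ?_⟩, decide_eq_true ?_⟩ <;> omega
  obtain ⟨hrn, hrp⟩ := hroots r hr
  have h0 : sym s fx fy (0, 0) = (0, 0) := by
    cases s <;> simp [sym, turn]
  have hgood := (good_of_entryOk hT r hrn {(0, 0)} {sym s fx fy b}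
    (fun c hc hbit => by
      have := testBit_of_or_eq (beq_iff_eq.2 hrp) hbit
      rw [Nat.testBit_two_pow, decide_eq_true_eq] at this
      subst this
      simp [cellOf, origin])
    (fun c hc hbit => by simpa using hfit c hc hbit)
    (by
      rw [disjoint_singleton]
      intro e
      apply hb
      have := congrArg (symInv s fx fy) e.symm
      rw [symInv_sym, ← h0, symInv_sym] at this
      exact this)).mono (show r + 1 ≤ n + 1 by omega)
  have h := WinsIn.map (f := symInv s fx fy) (g := sym s fx fy) (sym_symInv s fx fy)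
    (symInv_sym s fx fy) (fun C hC => symInv_isCopy s fx fy hC) hgood
  rw [image_singleton, image_singleton, symInv_sym] at h
  rw [show symInv s fx fy (0, 0) = (0, 0) by conv_lhs => rw [← h0, symInv_sym]] at h
  simpa using h

end Vale.Agent.P062
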