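import Vale.Agent.P062.Defs

/-!
Bounded wins, strategy extraction and invariance under symmetries.
-/

namespace Vale.Agent.P062

open Finset

/-- Maker, to move, wins within `k` further moves from the position `(M, B)`. -/
def WinsIn : ℕ → Finset Cell → Finset Cell → Prop
  | 0, _, _ => False
  | k + 1, M, B => ∃ x, x ∉ M ∧ x ∉ B ∧
      ((∃ C, IsCopy C ∧ C ⊆ insert x M) ∨
        ∀ b, b ∉ insert x M → b ∉ B → WinsIn k (insert x M) (insert b B))

theorem WinsIn.succ : ∀ {k : ℕ} {M B : Finset Cell}, WinsIn k M B → WinsIn (k + 1) M B
  | 0, _, _, h => h.elim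
  | k + 1, _, _, h => by
    obtain ⟨x, h1, h2, h3⟩ := h
    exact ⟨x, h1, h2, h3.imp id fun h b hb hb' => (h b hb hb').succ⟩

theorem WinsIn.mono {k l : ℕ} {M B : Finset Cell} (h : WinsIn k M B) (hkl : k ≤ l) :
    WinsIn l M B := by
  induction hkl with
  | refl => exact h
  | step _ ih => exact ih.succ

theorem exists_free (M B : Finset Cell) : ∃ x, x ∉ M ∧ x ∉ B := by
  obtain ⟨x, hx⟩ := Infinite.exists_notMem_finset (M ∪ B)
  exact ⟨x, fun h => hx (mem_union_left _ h), fun h => hx (mem_union_right _ h)⟩

open Classical in
/-- A move that wins as quickly as possible. -/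
noncomputable def pick (M B : Finset Cell) : Cell :=
  if h : ∃ k, WinsIn (k + 1) M B then (Nat.find_spec h).choose else (0, 0)

/-- The position after the given list of Breaker moves, most recent move last. -/
noncomputable def position (l : List Cell) : Finset Cell × Finset Cell :=
  l.foldl (fun p b => (insert (pick p.1 p.2) p.1, insert b p.2)) (∅, ∅)

/-- The strategy that always picks the quickest win. -/
noncomputable def quickest : Strategy := fun l => pick (position l).1 (position l).2

theorem position_succ (b : ℕ → Cell) (i : ℕ) :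
    position ((List.range (i + 1)).map b) =
      (insert (makerMove quickest b i) (position ((List.range i).map b)).1,
        insert (b i) (position ((List.range i).map b)).2) := by
  simp [List.range_succ, position, makerMove, quickest]

theorem position_eq (b : ℕ → Cell) (i : ℕ) :
    position ((List.range i).map b) =
      ((range i).image (makerMove quickest b), (range i).image b) := by
  induction i with
  | zero => simp [position]
  | succ i ih => simp [position_succ, ih, Finset.range_add_one]

theorem win_of_winsIn {b : ℕ → Cell} (hb : ∀ i, BreakerLegal quickest b i) :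
    ∀ k i, (∀ j < i, MakerLegal quickest b j) →
      WinsIn (k + 1) ((range i).image (makerMove quickest b)) ((range i).image b) →
      ∃ n, (∀ j ≤ n, MakerLegal quickest b j) ∧
        ∃ C, IsCopy C ∧ C ⊆ (range (n + 1)).image (makerMove quickest b) := by
  classical
  intro k
  induction k using Nat.strong_induction_on with
  | _ k ih =>
    intro i hleg hw
    set M := (range i).image (makerMove quickest b) with hM
    set B := (range i).image b with hB
    have h : ∃ k, WinsIn (k + 1) M B := ⟨k, hw⟩
    have hx : makerMove quickest b i = (Nat.find_spec h).choose := by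
      show pick (position ((List.range i).map b)).1 (position ((List.range i).map b)).2 = _
      rw [position_eq]
      simp only [pick, ← hM, ← hB, dif_pos h]
    obtain ⟨h1, h2, h3⟩ := (Nat.find_spec h).choose_spec
    rw [← hx] at h1 h2 h3
    have hl : MakerLegal quickest b i :=
      ⟨fun j hj he => h1 (he ▸ mem_image_of_mem _ (mem_range.2 hj)),
        fun j hj he => h2 (he ▸ mem_image_of_mem _ (mem_range.2 hj))⟩
    have hleg' : ∀ j ≤ i, MakerLegal quickest b j := fun j hj =>
      (eq_or_lt_of_le hj).elim (fun e => e ▸ hl) (hleg j)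
    have hins : insert (makerMove quickest b i) M =
        (range (i + 1)).image (makerMove quickest b) := by
      rw [hM, Finset.range_add_one, image_insert]
    rcases h3 with ⟨C, hC, hsub⟩ | h3
    · exact ⟨i, hleg', C, hC, hins ▸ hsub⟩
    · have hn1 : b i ∉ insert (makerMove quickest b i) M := by
        rw [hins, mem_image]
        rintro ⟨j, hj, he⟩
        exact (hb i).1 j (Nat.lt_succ_iff.1 (mem_range.1 hj)) he.symm
      have hn2 : b i ∉ B := by
        rw [hB, mem_image]
        rintro ⟨j, hj, he⟩
        exact (hb i).2 j (mem_range.1 hj) he.symm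
      have h4 := h3 (b i) hn1 hn2
      have hins' : insert (b i) B = (range (i + 1)).image b := by
        rw [hB, Finset.range_add_one, image_insert]
      rw [hins, hins'] at h4
      have hk : Nat.find h ≤ k := Nat.find_min' h hw
      rcases Nat.eq_zero_or_eq_succ_pred (Nat.find h) with e | e
      · rw [e] at h4
        exact h4.elim
      · rw [e] at h4
        exact ih _ (by omega) (i + 1) (fun j hj => hleg' j (Nat.lt_succ_iff.1 hj)) h4

theorem hasWinningStrategy_of_winsIn {k : ℕ} (h : WinsIn k ∅ ∅) : MakerHasWinningStrategy := by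
  refine ⟨quickest, fun b hb => ?_⟩
  obtain _ | k := k
  · exact h.elim
  · exact win_of_winsIn hb k 0 (by simp) (by simpa using h)

/-- The eight symmetries of the grid that fix the origin. -/
def sym (swap fx fy : Bool) : Cell → Cell :=
  turn swap (if fx then -1 else 1) (if fy then -1 else 1)

theorem turn_isCopy {f : Cell → Cell} {s₀ : Bool} {u₀ v₀ : ℤ} (hu₀ : u₀ = 1 ∨ u₀ = -1)
    (hv₀ : v₀ = 1 ∨ v₀ = -1) (hf : f = turn s₀ u₀ v₀) {C : Finset Cell} (hC : IsCopy C) :
    IsCopy (C.image f) := by
  obtain ⟨s, u, v, t, hu, hv, rfl⟩ := hC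
  subst hf
  rw [image_image]
  refine ⟨xor s s₀, if s₀ then u₀ * v else u₀ * u, if s₀ then v₀ * u else v₀ * v,
    turn s₀ u₀ v₀ t, ?_, ?_, ?_⟩
  · rcases hu₀ with rfl | rfl <;> rcases hu with rfl | rfl <;> rcases hv with rfl | rfl <;>
      cases s₀ <;> simp
  · rcases hv₀ with rfl | rfl <;> rcases hu with rfl | rfl <;> rcases hv with rfl | rfl <;>
      cases s₀ <;> simp
  · refine Finset.image_congr fun p _ => ?_
    cases s <;> cases s₀ <;> simp [turn, Prod.ext_iff] <;> constructor <;> ring

theorem WinsIn.map {f g : Cell → Cell} (hgf : ∀ p, g (f p) = p) (hfg : ∀ p, f (g p) = p)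
    (hf : ∀ C, IsCopy C → IsCopy (C.image f)) :
    ∀ {k : ℕ} {M B : Finset Cell}, WinsIn k M B → WinsIn k (M.image f) (B.image f)
  | 0, _, _, h => h.elim
  | k + 1, M, B, h => by
    have inj : Function.Injective f := Function.LeftInverse.injective hgf
    obtain ⟨x, h1, h2, h3⟩ := h
    refine ⟨f x, by rwa [inj.mem_finset_image], by rwa [inj.mem_finset_image], ?_⟩
    rcases h3 with ⟨C, hC, hs⟩ | h3
    · exact Or.inl ⟨C.image f, hf C hC, by rw [← image_insert]; exact image_subset_image hs⟩
    · refine Or.inr fun b hb hb' => ?_
      rw [← hfg b, ← image_insert, inj.mem_finset_image] at hb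
      rw [← hfg b, inj.mem_finset_image] at hb'
      have := WinsIn.map hgf hfg hf (h3 (g b) hb hb')
      rwa [image_insert, image_insert, hfg] at this

end Vale.Agent.P062
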