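import Mathlib

/-!
The Snaky achievement game on the square grid: cells, allowed copies, strategies and the winning
condition.
-/

namespace Vale.Agent.P062

/-- A cell of the square grid, named by its lower-left corner. -/
abbrev Cell := ℤ × ℤ

/-- The hexomino Snaky. -/
def snaky : Finset Cell := {(0, 0), (1, 0), (2, 0), (3, 0), (3, 1), (4, 1)}

/-- Action of a signed permutation matrix: an optional exchange of coordinates, then two signs. -/
def turn (swap : Bool) (u v : ℤ) (p : Cell) : Cell :=
  if swap then (u * p.2, v * p.1) else (u * p.1, v * p.2)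

/-- An allowed copy of Snaky: a translate of its image under a signed permutation matrix. -/
def IsCopy (C : Finset Cell) : Prop :=
  ∃ (swap : Bool) (u v : ℤ) (t : Cell), (u = 1 ∨ u = -1) ∧ (v = 1 ∨ v = -1) ∧
    C = snaky.image (fun p => t + turn swap u v p)

/-- A strategy of Maker: the next cell, given the moves Breaker has made so far. -/
abbrev Strategy := List Cell → Cell

/-- Maker's move in round `i` under `σ` when Breaker plays `b`. -/
def makerMove (σ : Strategy) (b : ℕ → Cell) (i : ℕ) : Cell := σ ((List.range i).map b)

/-- Breaker's move in round `i` is an unclaimed cell. -/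
def BreakerLegal (σ : Strategy) (b : ℕ → Cell) (i : ℕ) : Prop :=
  (∀ j ≤ i, b i ≠ makerMove σ b j) ∧ ∀ j < i, b i ≠ b j

/-- Maker's move in round `i` is an unclaimed cell. -/
def MakerLegal (σ : Strategy) (b : ℕ → Cell) (i : ℕ) : Prop :=
  (∀ j < i, makerMove σ b i ≠ makerMove σ b j) ∧ ∀ j < i, makerMove σ b i ≠ b j

/-- Maker has a winning strategy from the empty board: against every legal play of Breaker it
makes legal moves and, after finitely many rounds, owns all cells of an allowed copy. -/
def MakerHasWinningStrategy : Prop :=
  ∃ σ : Strategy, ∀ b : ℕ → Cell, (∀ i, BreakerLegal σ b i) →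
    ∃ n, (∀ i ≤ n, MakerLegal σ b i) ∧
      ∃ C, IsCopy C ∧ C ⊆ (Finset.range (n + 1)).image (makerMove σ b)

end Vale.Agent.P062
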