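import Vale.Agent.P062.Check.Check0
import Vale.Agent.P062.Check.Check1
import Vale.Agent.P062.Check.Check2
import Vale.Agent.P062.Check.Check3
import Vale.Agent.P062.Check.Check4
import Vale.Agent.P062.Check.Check5
import Vale.Agent.P062.Check.Check6
import Vale.Agent.P062.Check.Check7
import Vale.Agent.P062.Check.Check8
import Vale.Agent.P062.Check.Check9
import Vale.Agent.P062.Check.Check10
import Vale.Agent.P062.Check.Check11
import Vale.Agent.P062.Check.Check12
import Vale.Agent.P062.Check.Check13
import Vale.Agent.P062.Check.Check14
import Vale.Agent.P062.Check.Check15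

/-!
Maker has a winning strategy for Snaky in the plane.
-/

namespace Vale.Agent.P062

theorem certTable_ok : ∀ i < certSize, entryOk certTable i = true := by
  intro i hi
  rcases Nat.lt_or_ge i 2631 with h | h
  · exact checked0 (by omega) h
  rcases Nat.lt_or_ge i 5262 with h | h
  · exact checked1 (by omega) h
  rcases Nat.lt_or_ge i 7893 with h | h
  · exact checked2 (by omega) h
  rcases Nat.lt_or_ge i 10524 with h | h
  · exact checked3 (by omega) h
  rcases Nat.lt_or_ge i 13155 with h | h
  · exact checked4 (by omega) h
  rcases Nat.lt_or_ge i 15786 with h | h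
  · exact checked5 (by omega) h
  rcases Nat.lt_or_ge i 18417 with h | h
  · exact checked6 (by omega) h
  rcases Nat.lt_or_ge i 21048 with h | h
  · exact checked7 (by omega) h
  rcases Nat.lt_or_ge i 23679 with h | h
  · exact checked8 (by omega) h
  rcases Nat.lt_or_ge i 26310 with h | h
  · exact checked9 (by omega) h
  rcases Nat.lt_or_ge i 28941 with h | h
  · exact checked10 (by omega) h
  rcases Nat.lt_or_ge i 31572 with h | h
  · exact checked11 (by omega) h
  rcases Nat.lt_or_ge i 34203 with h | h
  · exact checked12 (by omega) h
  rcases Nat.lt_or_ge i 36834 with h | h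
  · exact checked13 (by omega) h
  rcases Nat.lt_or_ge i 39465 with h | h
  · exact checked14 (by omega) h
  exact checked15 h (by simpa [certSize] using hi)

theorem certRoots_ok : rootsOk certTable certSize certRoots = true := by decide +kernel

theorem snaky_maker_wins : MakerHasWinningStrategy :=
  makerHasWinningStrategy_of_cert certTable certSize certRoots certTable_ok certRoots_ok

end Vale.Agent.P062
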